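import Vale.Agent.P073.MM.Smooth2
import Vale.Agent.P073.MM.H307.MollLp
import Vale.Agent.P073.R2.H268.Stage

/-!
# P073: smoothing with signs of directional derivatives
-/

namespace Vale.Agent.P073.R2.H268

open MeasureTheory Set Filter Topology Metric Vale.Agent.P073.St Vale.Agent.P073.AB
open Vale.Agent.P073.MM
open scoped ContDiff ENNReal

/-- **Row A2** -/
theorem smooth (hA1 : SpecMollLp) {p : ℝ} {U : Set V} {f : V → V} {F : V → Mat} {e : V → ℝ}
    {ε : ℝ} (hp : 1 ≤ p) (hU : IsOpen U) (hUb : Bornology.IsBounded U) (hf : ContinuousOn f U)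
    (hF : St.IsSobolev p U f F) (he : ContinuousOn e U) (he0 : ∀ x ∈ U, 0 < e x) (hε : 0 < ε) :
    ∃ g : V → V, ContDiffOn ℝ ∞ g U ∧ (∀ x ∈ U, ‖g x - f x‖ ≤ e x) ∧
      ∫⁻ x in U, ENNReal.ofReal (‖fderiv ℝ g x - cl (F x)‖ ^ p) ≤ ENNReal.ofReal ε ∧
      ∀ (i : Fin 3) (h : V), (∀ᵐ y ∂(volume : Measure V), y ∈ U → 0 ≤ cl (F y) h i) →
        ∀ x ∈ U, -(e x) * ‖h‖ ≤ fderiv ℝ g x h i := by
  have hp0 : 0 < p := by linarith
  have hne : Uᶜ.Nonempty := by
    rw [nonempty_compl]
    rintro rfl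
    exact NormedSpace.unbounded_univ ℝ V hUb
  have hv : volume U ≠ ⊤ := hUb.measure_lt_top.ne
  obtain ⟨c, c1, c2, c3, c4, c5, c6, c7⟩ := exists_part hU hUb hne
  obtain ⟨κ, hκ, hκε⟩ := exists_kap hp0 hε hv
  choose m m0 mκ me using exists_m hU hUb hne he he0 hκ
  have hst := fun n => stage hA1 hp hU hUb hf hF (c1 n) (c2 n) (c3 n) (c4 n) (Q := Qn U n)
    (r := lv (n + 1) - lv (n + 2)) (sub_pos.2 (lv_succ (n + 1)))
    (qn_of hne c5 c6 n) (η := (1 / 2 : ℝ) ^ (n + 1) * (m n / 3))
    (ε := κ * (1 / 2) ^ (n + 1) / (2 ^ (n + 1)) ^ p) (by have := m0 n; positivity) (by positivity)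
  choose T A B t1 t2 t3 t4 t5 t6 t7 t8 using hst
  have cd : Continuous fun x : V => infDist x Uᶜ := continuous_infDist_pt _
  have hWo : ∀ N, IsOpen {x : V | lv N < infDist x Uᶜ} := fun N => isOpen_lt continuous_const cd
  have hpos : ∀ x ∈ U, 0 < infDist x Uᶜ := fun x hx =>
    (hU.isClosed_compl.notMem_iff_infDist_pos hne).1 (by simpa using hx)
  have hex : ∀ x ∈ U, ∃ N, lv N < infDist x Uᶜ := fun x hx => exists_lv (hpos x hx)
  have hlvU : ∀ {N x}, lv N < infDist x Uᶜ → x ∈ U := fun {N x} h =>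
    sub_of_pos hne hU ((lv_pos N).trans h)
  -- the sum
  have hg : ∀ N, ∀ x, lv N < infDist x Uᶜ → ∑' n, T n x = ∑ n ∈ Finset.range (N + 2), T n x := by
    intro N x hx
    refine tsum_eq_sum fun n hn => ?_
    exact (t6 n x (not_qn hx (by simpa using hn))).1
  have hev : ∀ N x, lv N < infDist x Uᶜ →
      (fun y => ∑' n, T n y) =ᶠ[𝓝 x] fun y => ∑ n ∈ Finset.range (N + 2), T n y := by
    intro N x hx
    filter_upwards [(hWo N).mem_nhds hx] with y hy using hg N y hy
  have hsm : ∀ N, ContDiff ℝ ∞ fun y => ∑ n ∈ Finset.range (N + 2), T n y := fun N =>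
    ContDiff.sum fun n _ => t1 n
  have hfd : ∀ N x, lv N < infDist x Uᶜ → fderiv ℝ (fun y => ∑' n, T n y) x =
      ∑ n ∈ Finset.range (N + 2), (A n x + B n x) := by
    intro N x hx
    rw [(hev N x hx).fderiv_eq, fderiv_fun_sum fun n _ => ((t1 n).differentiable (by simp)) x]
    exact Finset.sum_congr rfl fun n _ => t2 n x
  have hc1 : ∀ N x, lv N < infDist x Uᶜ → ∑ n ∈ Finset.range (N + 2), c n x = 1 := by
    intro N x hx
    exact c7 N x hx.le (N + 1) (by omega)
  have hcd : ∀ N x, lv N < infDist x Uᶜ → ∑ n ∈ Finset.range (N + 2), fderiv ℝ (c n) x = 0 := by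
    intro N x hx
    rw [← fderiv_fun_sum fun n _ => ((c1 n).differentiable (by simp)) x]
    have h1 : (fun y => ∑ n ∈ Finset.range (N + 2), c n y) =ᶠ[𝓝 x] fun _ => (1 : ℝ) := by
      filter_upwards [(hWo N).mem_nhds hx] with y hy using hc1 N y hy
    rw [h1.fderiv_eq]
    simp
  -- the estimates
  have b3 : ∀ x ∈ U, ∀ n, ‖T n x - c n x • f x‖ ≤ (1 / 2 : ℝ) ^ (n + 1) * e x := by
    intro x hx n
    have h0 := he0 x hx
    by_cases hq : Qn U n x
    · refine (t3 n x).trans ?_
      have := me n x hq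
      have := m0 n
      gcongr
      linarith
    · obtain ⟨e1, -, -, e2, -⟩ := t6 n x hq
      rw [e1, e2, zero_smul, sub_zero, norm_zero]
      positivity
  have b4 : ∀ x ∈ U, ∀ n, ‖B n x - (fderiv ℝ (c n) x).smulRight (f x)‖ ≤
      (1 / 2 : ℝ) ^ (n + 1) * (min (e x) κ / 3) := by
    intro x hx n
    have h0 : 0 < min (e x) κ := lt_min (he0 x hx) hκ
    by_cases hq : Qn U n x
    · refine (t4 n x).trans ?_
      have h1 : m n ≤ min (e x) κ := le_min (me n x hq) (mκ n)
      have := m0 n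
      gcongr
    · obtain ⟨-, -, e1, -, e2⟩ := t6 n x hq
      have e3 : (0 : V →L[ℝ] ℝ).smulRight (f x) = 0 := by ext v : 1; simp
      rw [e1, e2, e3, sub_zero, norm_zero]
      positivity
  have hB : ∀ N x, lv N < infDist x Uᶜ →
      ‖∑ n ∈ Finset.range (N + 2), B n x‖ ≤ min (e x) κ / 3 := by
    intro N x hx
    have hxU := hlvU hx
    have h0 : 0 < min (e x) κ := lt_min (he0 x hxU) hκ
    have h1 : ∑ n ∈ Finset.range (N + 2), (fderiv ℝ (c n) x).smulRight (f x) = 0 := by
      ext v : 1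
      rw [ContinuousLinearMap.sum_apply]
      simp only [ContinuousLinearMap.smulRight_apply]
      rw [← Finset.sum_smul, ← ContinuousLinearMap.sum_apply, hcd N x hx]
      simp
    have h2 : ∑ n ∈ Finset.range (N + 2), B n x =
        ∑ n ∈ Finset.range (N + 2), (B n x - (fderiv ℝ (c n) x).smulRight (f x)) := by
      rw [Finset.sum_sub_distrib, h1, sub_zero]
    rw [h2]
    exact norm_sum_le_geo _ (by positivity) _ (b4 x hxU)
  refine ⟨fun x => ∑' n, T n x, ?_, ?_, ?_, ?_⟩
  · intro x hx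
    obtain ⟨N, hN⟩ := hex x hx
    exact (((hsm N).contDiffAt).congr_of_eventuallyEq (hev N x hN)).contDiffWithinAt
  · intro x hx
    obtain ⟨N, hN⟩ := hex x hx
    have h1 : f x = ∑ n ∈ Finset.range (N + 2), c n x • f x := by
      rw [← Finset.sum_smul, hc1 N x hN, one_smul]
    show ‖∑' n, T n x - f x‖ ≤ e x
    rw [hg N x hN]
    conv_lhs => rw [h1]
    rw [← Finset.sum_sub_distrib]
    exact norm_sum_le_geo _ (he0 x hx).le _ (b3 x hx)
  · -- the energy
    have hAm : ∀ n, AEMeasurable (fun x => ENNReal.ofReal ((2 ^ (n + 1)) ^ p) *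
        ENNReal.ofReal (‖A n x - c n x • cl (F x)‖ ^ p)) (volume.restrict U) := by
      intro n
      have h1 : AEStronglyMeasurable (fun x => A n x - c n x • cl (F x)) (volume.restrict U) :=
        (t8 n).aestronglyMeasurable.sub
          ((c1 n).continuous.aestronglyMeasurable.smul (PK.IsSob.aesm hF))
      exact (h1.norm.aemeasurable.pow_const p).ennreal_ofReal.const_mul _
    calc ∫⁻ x in U, ENNReal.ofReal (‖fderiv ℝ (fun y => ∑' n, T n y) x - cl (F x)‖ ^ p)
        ≤ ∫⁻ x in U, ENNReal.ofReal (2 ^ p) * (∑' n, ENNReal.ofReal ((2 ^ (n + 1)) ^ p) *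
            ENNReal.ofReal (‖A n x - c n x • cl (F x)‖ ^ p) + ENNReal.ofReal (κ ^ p)) := by
          refine setLIntegral_mono' hU.measurableSet fun x hx => ?_
          obtain ⟨N, hN⟩ := hex x hx
          have h0 : 0 < min (e x) κ := lt_min (he0 x hx) hκ
          refine pt_energy hp0 hκ.le (fun n => A n x - c n x • cl (F x))
            (∑ n ∈ Finset.range (N + 2), B n x) _ (N + 2) ?_ ?_
          · have h1 : cl (F x) = ∑ n ∈ Finset.range (N + 2), c n x • cl (F x) := by
              rw [← Finset.sum_smul, hc1 N x hN, one_smul]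
            rw [hfd N x hN]
            conv_lhs => rw [h1]
            rw [Finset.sum_add_distrib, Finset.sum_sub_distrib]
            abel
          · have h1 := hB N x hN
            have h2 : min (e x) κ ≤ κ := min_le_right _ _
            linarith
      _ = ENNReal.ofReal (2 ^ p) * ((∫⁻ x in U, ∑' n, ENNReal.ofReal ((2 ^ (n + 1)) ^ p) *
            ENNReal.ofReal (‖A n x - c n x • cl (F x)‖ ^ p)) +
            ENNReal.ofReal (κ ^ p) * volume U) := by
          rw [lintegral_const_mul' _ _ ENNReal.ofReal_ne_top,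
            lintegral_add_right' _ aemeasurable_const, setLIntegral_const]
      _ ≤ ENNReal.ofReal (2 ^ p) * (ENNReal.ofReal κ + ENNReal.ofReal (κ ^ p) * volume U) := by
          gcongr
          rw [lintegral_tsum hAm]
          refine le_trans (ENNReal.tsum_le_tsum fun n => ?_) (tsum_geo κ hκ.le)
          rw [lintegral_const_mul' _ _ ENNReal.ofReal_ne_top]
          calc ENNReal.ofReal ((2 ^ (n + 1)) ^ p) *
                ∫⁻ x in U, ENNReal.ofReal (‖A n x - c n x • cl (F x)‖ ^ p)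
              ≤ ENNReal.ofReal ((2 ^ (n + 1)) ^ p) *
                ENNReal.ofReal (κ * (1 / 2) ^ (n + 1) / (2 ^ (n + 1)) ^ p) := by
                gcongr
                exact (setLIntegral_le_lintegral _ _).trans (t5 n)
            _ = ENNReal.ofReal (κ * (1 / 2) ^ (n + 1)) := by
                rw [← ENNReal.ofReal_mul (by positivity)]
                congr 1
                have : ((2 : ℝ) ^ (n + 1)) ^ p ≠ 0 := by positivity
                field_simp
      _ ≤ ENNReal.ofReal ε := hκε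
  · intro i h hsg x hx
    obtain ⟨N, hN⟩ := hex x hx
    rw [hfd N x hN, Finset.sum_add_distrib]
    have e1 : (∑ n ∈ Finset.range (N + 2), A n x + ∑ n ∈ Finset.range (N + 2), B n x) h i =
        ∑ n ∈ Finset.range (N + 2), A n x h i + (∑ n ∈ Finset.range (N + 2), B n x) h i := by
      show (∑ n ∈ Finset.range (N + 2), A n x) h i + _ = _
      congr 1
      rw [ContinuousLinearMap.sum_apply, Finset.sum_apply]
    rw [e1]
    have h1 : 0 ≤ ∑ n ∈ Finset.range (N + 2), A n x h i :=
      Finset.sum_nonneg fun n _ => t7 n i h hsg x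
    have h2 : |(∑ n ∈ Finset.range (N + 2), B n x) h i| ≤
        ‖∑ n ∈ Finset.range (N + 2), B n x‖ * ‖h‖ :=
      (norm_le_pi_norm ((∑ n ∈ Finset.range (N + 2), B n x) h) i).trans
        (ContinuousLinearMap.le_opNorm _ _)
    have h3 := hB N x hN
    have h4 : min (e x) κ ≤ e x := min_le_left _ _
    have h5 : ‖∑ n ∈ Finset.range (N + 2), B n x‖ * ‖h‖ ≤ e x * ‖h‖ := by
      apply mul_le_mul_of_nonneg_right _ (norm_nonneg h)
      have := he0 x hx
      linarith
    have h6 := (abs_le.1 h2).1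
    linarith

end Vale.Agent.P073.R2.H268
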